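import Vale.Agent.P113.H278.Geom
import Vale.Agent.P113.H907.Prog

/-!
From a reversible program with two stacks to a box system (problem P113).
-/

namespace Vale.Agent.P113.H278

open Vale.Agent.P113.H907

/-- base of the expansions -/
def base (k : ℕ) : ℚ := 2 * k + 2

theorem base_pos (k : ℕ) : 0 < base k := by unfold base; positivity

theorem base_ge (k : ℕ) : 2 ≤ base k := by
  unfold base
  have : (0 : ℚ) ≤ k := by positivity
  linarith

/-- left end of the interval of a digit -/
def dig {k : ℕ} (a : Fin k) : ℚ := (2 * (a : ℕ) + 1) / base k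

/-- code of a stack -/
def code {k : ℕ} : List (Fin k) → ℚ
  | [] => 0
  | a :: l => (2 * (a : ℕ) + 1 + code l) / base k

theorem code_cons {k : ℕ} (a : Fin k) (l : List (Fin k)) :
    code (a :: l) = dig a + code l / base k := by
  rw [code, dig, add_div]

theorem code_bounds {k : ℕ} (l : List (Fin k)) : 0 ≤ code l ∧ code l ≤ 1 := by
  induction l with
  | nil => simp [code]
  | cons a l ih =>
    have hb := base_pos k
    have ha : ((a : ℕ) : ℚ) + 1 ≤ k := by exact_mod_cast a.2
    rw [code]
    constructor
    · apply div_nonneg _ hb.le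
      have : (0 : ℚ) ≤ ((a : ℕ) : ℚ) := by positivity
      linarith [ih.1]
    · rw [div_le_one hb]
      unfold base
      linarith [ih.2]

theorem dig_pos {k : ℕ} (a : Fin k) : 0 < dig a := by
  unfold dig
  have := base_pos k
  positivity

theorem dig_lt {k : ℕ} (a : Fin k) : dig a + 1 / base k ≤ 1 := by
  have hb := base_pos k
  have ha : ((a : ℕ) : ℚ) + 1 ≤ k := by exact_mod_cast a.2
  unfold dig
  rw [← add_div, div_le_one hb]
  unfold base
  linarith

theorem dig_sep {k : ℕ} {a b : Fin k} (h : a < b) :
    dig a + 1 / base k + 1 / base k ≤ dig b := by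
  have hb := base_pos k
  have ha : ((a : ℕ) : ℚ) + 1 ≤ (b : ℕ) := by exact_mod_cast h
  unfold dig
  rw [← add_div, ← add_div]
  apply div_le_div_of_nonneg_right _ hb.le
  linarith

/-- width of a state square in the first coordinate -/
def wx (m : ℕ) : ℚ := 1 / (2 * m + 1)

theorem wx_pos (m : ℕ) : 0 < wx m := by unfold wx; positivity

theorem wx_le (m : ℕ) : wx m ≤ 1 := by
  unfold wx
  rw [div_le_one (by positivity)]
  have : (0 : ℚ) ≤ m := by positivity
  linarith

/-- left end of the state square -/
def X0 {m : ℕ} (p : Fin m) : ℚ := (2 * (p : ℕ) + 1) / (2 * m + 1)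

theorem X0_eq {m : ℕ} (p : Fin m) : X0 p = (2 * (p : ℕ) + 1) * wx m := by
  unfold X0 wx
  ring

theorem wx_mul (m : ℕ) : (2 * m + 1) * wx m = 1 := by
  unfold wx
  have : (2 * (m : ℚ) + 1) ≠ 0 := by positivity
  field_simp

theorem X0_ge {m : ℕ} (p : Fin m) : wx m ≤ X0 p := by
  rw [X0_eq]
  have := wx_pos m
  have hp : (0 : ℚ) ≤ ((p : ℕ) : ℚ) := by positivity
  nlinarith

theorem X0_le {m : ℕ} (p : Fin m) : X0 p + wx m + wx m ≤ 1 := by
  rw [X0_eq]
  have h1 := wx_mul m
  have h2 := wx_pos m
  have hp : ((p : ℕ) : ℚ) + 1 ≤ m := by exact_mod_cast p.2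
  nlinarith

theorem X0_sep {m : ℕ} {p q : Fin m} (h : p < q) : X0 p + wx m + wx m ≤ X0 q := by
  rw [X0_eq, X0_eq]
  have h2 := wx_pos m
  have hp : ((p : ℕ) : ℚ) + 1 ≤ (q : ℕ) := by exact_mod_cast h
  nlinarith

/-- square of a state -/
def sq {m : ℕ} (p : Fin m) : Rect := ⟨X0 p, X0 p + wx m, 1 / 3, 2 / 3⟩

/-- strip of a state and a digit -/
def strip {m k : ℕ} (s : Bool) (p : Fin m) (a : Fin k) : Rect :=
  bif s then ⟨X0 p, X0 p + wx m, 1 / 3 + 1 / 3 * dig a, 1 / 3 + 1 / 3 * (dig a + 1 / base k)⟩
  else ⟨X0 p + wx m * dig a, X0 p + wx m * (dig a + 1 / base k), 1 / 3, 2 / 3⟩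

/-- margin -/
def del (m k : ℕ) : ℚ := 1 / 3 * (wx m / base k)

theorem del_pos (m k : ℕ) : 0 < del m k := by
  unfold del
  have := wx_pos m
  have := base_pos k
  positivity

theorem del_le_wx (m k : ℕ) : del m k ≤ wx m := by
  unfold del
  have h1 := wx_pos m
  have h2 := base_pos k
  have h3 : wx m / base k ≤ wx m := by
    rw [div_le_iff₀ h2]
    nlinarith [base_ge k]
  have h4 : 0 < wx m / base k := by positivity
  linarith

theorem del_le_wxb (m k : ℕ) : del m k ≤ wx m * (1 / base k) := by
  unfold del
  have h1 := wx_pos m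
  have h2 := base_pos k
  have h4 : 0 < wx m / base k := by positivity
  rw [mul_one_div]
  linarith

theorem del_le_third (m k : ℕ) : del m k ≤ 1 / 3 * (1 / base k) := by
  unfold del
  have h1 := wx_pos m
  have h2 := base_pos k
  have h3 : wx m / base k ≤ 1 / base k := by
    apply div_le_div_of_nonneg_right (wx_le m) h2.le
  linarith

theorem inv_base_le (k : ℕ) : 1 / base k ≤ 1 := by
  rw [div_le_one (base_pos k)]
  linarith [base_ge k]

theorem del_le_third' (m k : ℕ) : del m k ≤ 1 / 3 := by
  have := del_le_third m k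
  have := inv_base_le k
  linarith

theorem sq_ok {m : ℕ} (k : ℕ) (p : Fin m) : (sq p).ok (del m k) := by
  have h1 := X0_ge p
  have h2 := X0_le p
  have h3 := del_le_wx m k
  have h4 := del_le_third' m k
  have h5 := wx_pos m
  refine ⟨?_, ?_, ?_, ?_, ?_, ?_⟩ <;> simp only [sq] <;> linarith

theorem strip_ok {m k : ℕ} (s : Bool) (p : Fin m) (a : Fin k) : (strip s p a).ok (del m k) := by
  have h1 := X0_ge p
  have h2 := X0_le p
  have h3 := del_le_wx m k
  have h4 := del_le_third' m k
  have h5 := wx_pos m
  have h6 := dig_pos a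
  have h7 := dig_lt a
  have h8 : 0 < 1 / base k := by have := base_pos k; positivity
  have h9 : wx m * (dig a + 1 / base k) ≤ wx m * 1 := mul_le_mul_of_nonneg_left h7 h5.le
  have h10 : wx m * dig a ≤ wx m * (dig a + 1 / base k) :=
    mul_le_mul_of_nonneg_left (by linarith) h5.le
  have h11 : 0 < wx m * dig a := by positivity
  cases s
  · refine ⟨?_, ?_, ?_, ?_, ?_, ?_⟩ <;> simp only [strip, cond_false] <;> linarith
  · refine ⟨?_, ?_, ?_, ?_, ?_, ?_⟩ <;> simp only [strip, cond_true] <;> linarith

/-- every strip is contained in its square -/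
theorem strip_sub {m k : ℕ} (s : Bool) (p : Fin m) (a : Fin k) :
    (sq p).x0 ≤ (strip s p a).x0 ∧ (strip s p a).x1 ≤ (sq p).x1 := by
  have h5 := wx_pos m
  have h6 := dig_pos a
  have h7 := dig_lt a
  have h9 : wx m * (dig a + 1 / base k) ≤ wx m * 1 := mul_le_mul_of_nonneg_left h7 h5.le
  have h11 : 0 < wx m * dig a := by positivity
  cases s
  · constructor <;> simp only [strip, sq, cond_false] <;> linarith
  · constructor <;> simp only [strip, sq, cond_true] <;> linarith

/-- rectangles over distinct states are separated -/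
theorem sep_states {m k : ℕ} {R R' : Rect} {p q : Fin m} (hpq : p ≠ q)
    (h1 : (sq p).x0 ≤ R.x0) (h2 : R.x1 ≤ (sq p).x1)
    (h3 : (sq q).x0 ≤ R'.x0) (h4 : R'.x1 ≤ (sq q).x1) : R.sep (del m k) R' := by
  have h5 := del_le_wx m k
  rcases lt_or_gt_of_ne hpq with h | h
  · left
    have := X0_sep h
    simp only [sq] at *
    linarith
  · right; left
    have := X0_sep h
    simp only [sq] at *
    linarith

theorem sep_strip {m k : ℕ} (s : Bool) (p : Fin m) {a b : Fin k} (hab : a ≠ b) :
    (strip s p a).sep (del m k) (strip s p b) := by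
  have h5 := wx_pos m
  have h6 := del_le_wxb m k
  have h7 := del_le_third m k
  cases s
  · rcases lt_or_gt_of_ne hab with h | h
    · left
      have := dig_sep h
      have h9 : wx m * (dig a + 1 / base k + 1 / base k) ≤ wx m * dig b :=
        mul_le_mul_of_nonneg_left this h5.le
      simp only [strip, cond_false]
      nlinarith
    · right; left
      have := dig_sep h
      have h9 : wx m * (dig b + 1 / base k + 1 / base k) ≤ wx m * dig a :=
        mul_le_mul_of_nonneg_left this h5.le
      simp only [strip, cond_false]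
      nlinarith
  · rcases lt_or_gt_of_ne hab with h | h
    · right; right; left
      have := dig_sep h
      simp only [strip, cond_true]
      linarith
    · right; right; right
      have := dig_sep h
      simp only [strip, cond_true]
      linarith

/-- domain rectangle of a rule -/
def dom {m k : ℕ} (r : Rule (Fin m) (Fin k)) : Rect :=
  match r.op with
  | Op.push _ _ => sq r.src
  | Op.pop s a => strip s r.src a

/-- image rectangle of a rule -/
def img {m k : ℕ} (r : Rule (Fin m) (Fin k)) : Rect :=
  match r.op with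
  | Op.push s a => strip s r.dst a
  | Op.pop _ _ => sq r.dst

/-- which coordinate is scaled by the rule -/
def rtp {m k : ℕ} (r : Rule (Fin m) (Fin k)) : Bool :=
  match r.op with
  | Op.push s _ => s
  | Op.pop s _ => s

/-- scaling factor of the rule -/
def rsc {m k : ℕ} (r : Rule (Fin m) (Fin k)) : ℚ :=
  match r.op with
  | Op.push _ _ => 1 / base k
  | Op.pop _ _ => base k

theorem rsc_pos {m k : ℕ} (r : Rule (Fin m) (Fin k)) : 0 < rsc r := by
  have := base_pos k
  unfold rsc
  cases r.op
  · simp only; positivity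
  · simpa using this

theorem dom_ok {m k : ℕ} (r : Rule (Fin m) (Fin k)) : (dom r).ok (del m k) := by
  unfold dom
  cases r.op
  · exact sq_ok k _
  · exact strip_ok _ _ _

theorem img_ok {m k : ℕ} (r : Rule (Fin m) (Fin k)) : (img r).ok (del m k) := by
  unfold img
  cases r.op
  · exact strip_ok _ _ _
  · exact sq_ok k _

theorem dom_sub {m k : ℕ} (r : Rule (Fin m) (Fin k)) :
    (sq r.src).x0 ≤ (dom r).x0 ∧ (dom r).x1 ≤ (sq r.src).x1 := by
  unfold dom
  cases r.op
  · exact ⟨le_rfl, le_rfl⟩
  · exact strip_sub _ _ _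

theorem img_sub {m k : ℕ} (r : Rule (Fin m) (Fin k)) :
    (sq r.dst).x0 ≤ (img r).x0 ∧ (img r).x1 ≤ (sq r.dst).x1 := by
  unfold img
  cases r.op
  · exact strip_sub _ _ _
  · exact ⟨le_rfl, le_rfl⟩

theorem dom_sep' {m k : ℕ} (P : RevProg m k) {r r' : Rule (Fin m) (Fin k)}
    (hr : r ∈ P.rules) (hr' : r' ∈ P.rules) (hne : r ≠ r') : (dom r).sep (del m k) (dom r') := by
  by_cases h : r.src = r'.src
  · obtain ⟨s, a, b, hab, h1, h2⟩ := P.dom_sep r hr r' hr' hne h
    unfold dom
    rw [h1, h2, h]
    exact sep_strip s _ hab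
  · exact sep_states h (dom_sub r).1 (dom_sub r).2 (dom_sub r').1 (dom_sub r').2

theorem img_sep' {m k : ℕ} (P : RevProg m k) {r r' : Rule (Fin m) (Fin k)}
    (hr : r ∈ P.rules) (hr' : r' ∈ P.rules) (hne : r ≠ r') : (img r).sep (del m k) (img r') := by
  by_cases h : r.dst = r'.dst
  · obtain ⟨s, a, b, hab, h1, h2⟩ := P.img_sep r hr r' hr' hne h
    unfold img
    rw [h1, h2, h]
    exact sep_strip s _ hab
  · exact sep_states h (img_sub r).1 (img_sub r).2 (img_sub r').1 (img_sub r').2

theorem hlt_sep' {m k : ℕ} (P : RevProg m k) {r : Rule (Fin m) (Fin k)}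
    (hr : r ∈ P.rules) : (dom r).sep (del m k) (sq P.hlt) :=
  sep_states (P.hlt_src r hr) (dom_sub r).1 (dom_sub r).2 le_rfl le_rfl

/-- the `i`-th rule of the program -/
noncomputable def rule {m k : ℕ} (P : RevProg m k) (i : Fin P.rules.card) :
    Rule (Fin m) (Fin k) := (P.rules.equivFin.symm i).1

theorem rule_mem {m k : ℕ} (P : RevProg m k) (i : Fin P.rules.card) : rule P i ∈ P.rules :=
  (P.rules.equivFin.symm i).2

theorem rule_ne {m k : ℕ} (P : RevProg m k) {i j : Fin P.rules.card} (h : i ≠ j) :
    rule P i ≠ rule P j := by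
  intro h'
  exact h (P.rules.equivFin.symm.injective (Subtype.ext h'))

theorem exists_rule {m k : ℕ} (P : RevProg m k) {r : Rule (Fin m) (Fin k)} (hr : r ∈ P.rules) :
    ∃ i, rule P i = r := ⟨P.rules.equivFin ⟨r, hr⟩, by simp [rule]⟩

/-- the box system of a program -/
noncomputable def boxSys {m k : ℕ} (P : RevProg m k) : BoxSys P.rules.card where
  δ := del m k
  D i := dom (rule P i)
  E i := img (rule P i)
  H := sq P.hlt
  tp i := rtp (rule P i)
  sc i := rsc (rule P i)
  δpos := del_pos m k
  Dok _ := dom_ok _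
  Eok _ := img_ok _
  Hok := sq_ok k _
  Dsep i j h := dom_sep' P (rule_mem P i) (rule_mem P j) (rule_ne P h)
  Esep i j h := img_sep' P (rule_mem P i) (rule_mem P j) (rule_ne P h)
  Hsep i := hlt_sep' P (rule_mem P i)
  scpos _ := rsc_pos _

/-- first coordinate of the point of a configuration -/
def ptx {m k : ℕ} (c : Cfg (Fin m) (Fin k)) : ℚ := X0 c.st + wx m * code (c.stk false)

/-- second coordinate of the point of a configuration -/
def pty {m k : ℕ} (c : Cfg (Fin m) (Fin k)) : ℚ := 1 / 3 + 1 / 3 * code (c.stk true)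

theorem pt_mem_sq {m k : ℕ} (c : Cfg (Fin m) (Fin k)) : (sq c.st).mem (ptx c) (pty c) := by
  have h1 := code_bounds (c.stk false)
  have h2 := code_bounds (c.stk true)
  have h5 := wx_pos m
  have h9 : wx m * code (c.stk false) ≤ wx m * 1 := mul_le_mul_of_nonneg_left h1.2 h5.le
  have h10 : 0 ≤ wx m * code (c.stk false) := mul_nonneg h5.le h1.1
  unfold Rect.mem sq ptx pty
  refine ⟨?_, ?_, ?_, ?_⟩ <;> norm_cast <;> linarith

theorem cons_mem_strip {m k : ℕ} (s : Bool) (p : Fin m) (a : Fin k) (S : Bool → List (Fin k)) :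
    (strip s p a).mem (ptx ⟨p, Function.update S s (a :: S s)⟩)
      (pty ⟨p, Function.update S s (a :: S s)⟩) := by
  have h1 := code_bounds (S false)
  have h2 := code_bounds (S true)
  have h5 := wx_pos m
  have hb := base_pos k
  have h9 : wx m * code (S false) ≤ wx m * 1 := mul_le_mul_of_nonneg_left h1.2 h5.le
  have h10 : 0 ≤ wx m * code (S false) := mul_nonneg h5.le h1.1
  unfold Rect.mem strip ptx pty
  cases s
  · have e1 : 0 ≤ code (S false) / base k := div_nonneg h1.1 hb.le
    have e2 : code (S false) / base k ≤ 1 / base k := div_le_div_of_nonneg_right h1.2 hb.le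
    have e3 : wx m * dig a ≤ wx m * (dig a + code (S false) / base k) :=
      mul_le_mul_of_nonneg_left (by linarith) h5.le
    have e4 : wx m * (dig a + code (S false) / base k) ≤ wx m * (dig a + 1 / base k) :=
      mul_le_mul_of_nonneg_left (by linarith) h5.le
    have u1 : Function.update S false (a :: S false) true = S true := by simp
    have u2 : Function.update S false (a :: S false) false = a :: S false := by simp
    dsimp only
    rw [u1, u2, code_cons]
    simp only [cond_false]
    refine ⟨?_, ?_, ?_, ?_⟩ <;> norm_cast <;> linarith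
  · have e1 : 0 ≤ code (S true) / base k := div_nonneg h2.1 hb.le
    have e2 : code (S true) / base k ≤ 1 / base k := div_le_div_of_nonneg_right h2.2 hb.le
    have u1 : Function.update S true (a :: S true) false = S false := by simp
    have u2 : Function.update S true (a :: S true) true = a :: S true := by simp
    dsimp only
    rw [u1, u2, code_cons]
    simp only [cond_true]
    refine ⟨?_, ?_, ?_, ?_⟩ <;> norm_cast <;> linarith

/-- A step by the rule `r`: the point of `c` lies in the domain rectangle, the point of `d` in the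
image rectangle, and the affine map maps the one to the other. -/
theorem step_mem {m k : ℕ} {r : Rule (Fin m) (Fin k)} {c d : Cfg (Fin m) (Fin k)}
    (h : r.Step c d) : (dom r).mem (ptx c) (pty c) ∧ (img r).mem (ptx d) (pty d) := by
  obtain ⟨h1, h2, h3⟩ := h
  obtain ⟨cs, cS⟩ := c
  obtain ⟨ds, dS⟩ := d
  obtain ⟨rs, rd, op⟩ := r
  simp only at h1 h2 h3
  subst h1 h2
  cases h3 with
  | push s a S =>
    exact ⟨pt_mem_sq (⟨cs, cS⟩ : Cfg (Fin m) (Fin k)), cons_mem_strip s ds a cS⟩
  | pop s a S =>
    exact ⟨cons_mem_strip s cs a dS, pt_mem_sq (⟨ds, dS⟩ : Cfg (Fin m) (Fin k))⟩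

/-- the affine maps of the box system carry the point of `c` to the point of `d` -/
theorem step_affine {m k : ℕ} (P : RevProg m k) {i : Fin P.rules.card}
    {c d : Cfg (Fin m) (Fin k)} (h : (rule P i).Step c d) :
    (boxSys P).Tx i (ptx c) = ptx d ∧ (boxSys P).Ty i (pty c) = pty d := by
  have hb := base_pos k
  obtain ⟨h1, h2, h3⟩ := h
  obtain ⟨cs, cS⟩ := c
  obtain ⟨ds, dS⟩ := d
  unfold BoxSys.Tx BoxSys.Ty boxSys
  simp only
  generalize rule P i = r at *
  obtain ⟨rs, rd, op⟩ := r
  simp only at h1 h2 h3
  subst h1 h2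
  cases h3 with
  | push s a S =>
    cases s
    · have u1 : Function.update cS false (a :: cS false) true = cS true := by simp
      have u2 : Function.update cS false (a :: cS false) false = a :: cS false := by simp
      unfold ptx pty dom img rtp rsc strip sq
      dsimp only [cond_false]
      rw [u1, u2, code_cons]
      constructor
      · norm_cast
        field_simp
        ring
      · norm_cast
        ring
    · have u1 : Function.update cS true (a :: cS true) false = cS false := by simp
      have u2 : Function.update cS true (a :: cS true) true = a :: cS true := by simp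
      unfold ptx pty dom img rtp rsc strip sq
      dsimp only [cond_true]
      rw [u1, u2, code_cons]
      constructor
      · norm_cast
        ring
      · norm_cast
        field_simp
        ring
  | pop s a S =>
    cases s
    · have u1 : Function.update dS false (a :: dS false) true = dS true := by simp
      have u2 : Function.update dS false (a :: dS false) false = a :: dS false := by simp
      unfold ptx pty dom img rtp rsc strip sq
      dsimp only [cond_false]
      rw [u1, u2, code_cons]
      constructor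
      · norm_cast
        field_simp
        ring
      · norm_cast
        ring
    · have u1 : Function.update dS true (a :: dS true) false = dS false := by simp
      have u2 : Function.update dS true (a :: dS true) true = a :: dS true := by simp
      unfold ptx pty dom img rtp rsc strip sq
      dsimp only [cond_true]
      rw [u1, u2, code_cons]
      constructor
      · norm_cast
        ring
      · norm_cast
        field_simp
        ring

/-- **One step is realised by the four shears.** -/
theorem step_profile (C : CutFamily) {m k : ℕ} (P : RevProg m k) {c d : Cfg (Fin m) (Fin k)}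
    (h : P.Step c d) : ∃ z : ℝ, 0 < z ∧ z < BoxSys.zlo P.rules.card ∧
      (boxSys P).F1 C (ptx c) (pty c) = z ∧
      (ptx c : ℝ) + (boxSys P).F2 C z = ptx d ∧
      (pty c : ℝ) + (boxSys P).F3 C z = pty d ∧
      z + (boxSys P).F4 C (ptx d) (pty d) = 0 := by
  obtain ⟨r, hr, hs⟩ := h
  obtain ⟨i, rfl⟩ := exists_rule P hr
  obtain ⟨hD, hE⟩ := step_mem hs
  obtain ⟨hx, hy⟩ := step_affine P hs
  have hD' : ((boxSys P).D i).mem (ptx c) (pty c) := hD
  have hE' : ((boxSys P).E i).mem (ptx d) (pty d) := hE
  obtain ⟨z0, z1⟩ := BoxSys.z1_lt i hD'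
  refine ⟨(boxSys P).z1 i (ptx c) (pty c), z0, z1, BoxSys.F1_mem hD', ?_, ?_, ?_⟩
  · rw [BoxSys.F2_step hD', hx]
  · rw [BoxSys.F3_step hD', hy]
  · have := BoxSys.F4_step (C := C) (B := boxSys P) (i := i) (x := ptx c) (y := pty c)
      (by rw [hx, hy]; exact hE')
    rwa [hx, hy] at this

/-- **The halting state is lifted to the detection slab.** -/
theorem halt_profile (C : CutFamily) {m k : ℕ} (P : RevProg m k) {c : Cfg (Fin m) (Fin k)}
    (h : c.st = P.hlt) : (BoxSys.zlo P.rules.card : ℝ) < (boxSys P).F1 C (ptx c) (pty c) ∧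
      (boxSys P).F1 C (ptx c) (pty c) < BoxSys.zhi P.rules.card := by
  have hm : (boxSys P).H.mem (ptx c) (pty c) := by
    have := pt_mem_sq c
    rw [h] at this
    exact this
  rw [BoxSys.F1_halt hm]
  exact BoxSys.halt_level _

/-- the points lie in the open unit square -/
theorem pt_bounds {m k : ℕ} (c : Cfg (Fin m) (Fin k)) :
    (0 < ptx c ∧ ptx c < 1) ∧ (0 < pty c ∧ pty c < 1) := by
  have h1 := code_bounds (c.stk false)
  have h2 := code_bounds (c.stk true)
  have h3 := X0_ge c.st
  have h4 := X0_le c.st
  have h5 := wx_pos m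
  have h9 : wx m * code (c.stk false) ≤ wx m * 1 := mul_le_mul_of_nonneg_left h1.2 h5.le
  have h10 : 0 ≤ wx m * code (c.stk false) := mul_nonneg h5.le h1.1
  unfold ptx pty
  refine ⟨⟨?_, ?_⟩, ?_, ?_⟩ <;> linarith

/-- the point of the initial configuration: only the second coordinate depends on the word -/
theorem pt_start {m k : ℕ} (q : Fin m) (l : List (Fin k)) :
    ptx (Cfg.start q l) = X0 q ∧ pty (Cfg.start q l) = 1 / 3 + 1 / 3 * code l := by
  simp [ptx, pty, Cfg.start, code]

end Vale.Agent.P113.H278
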