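import Mathlib

/-!
Geometry of the shear realisation (problem P113).

A finite system of axis-parallel rectangles `D i`, `E i` in the unit square, with affine maps
`T i : D i → E i` scaling one coordinate, is realised on the plane `z = 0` by the composition of
four shears of the three-torus.
-/

namespace Vale.Agent.P113.H278

open Finset

/-- Families of cutoffs: `c α β δ` is one on `[α, β]` and zero outside `(α - δ, β + δ)`;
`l α β δ` is the identity on `[α, β]` and zero outside `(α - δ, β + δ)`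
(statements for points of `[0,1]`). -/
structure CutFamily where
  c : ℚ → ℚ → ℚ → ℝ → ℝ
  l : ℚ → ℚ → ℚ → ℝ → ℝ
  c_one : ∀ α β δ : ℚ, 0 < δ → δ ≤ α → α ≤ β → β + δ ≤ 1 → ∀ y : ℝ, (α : ℝ) ≤ y → y ≤ β →
    c α β δ y = 1
  l_id : ∀ α β δ : ℚ, 0 < δ → δ ≤ α → α ≤ β → β + δ ≤ 1 → ∀ y : ℝ, (α : ℝ) ≤ y → y ≤ β →
    l α β δ y = y
  c_zero : ∀ α β δ : ℚ, 0 < δ → δ ≤ α → α ≤ β → β + δ ≤ 1 → ∀ y : ℝ, 0 ≤ y → y ≤ 1 →
    (y + δ ≤ α ∨ (β : ℝ) + δ ≤ y) → c α β δ y = 0
  l_zero : ∀ α β δ : ℚ, 0 < δ → δ ≤ α → α ≤ β → β + δ ≤ 1 → ∀ y : ℝ, 0 ≤ y → y ≤ 1 →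
    (y + δ ≤ α ∨ (β : ℝ) + δ ≤ y) → l α β δ y = 0

/-- Rational axis-parallel rectangles. -/
structure Rect where
  (x0 x1 y0 y1 : ℚ)

/-- Membership of a real point in a rectangle. -/
def Rect.mem (R : Rect) (x y : ℝ) : Prop :=
  (R.x0 : ℝ) ≤ x ∧ x ≤ R.x1 ∧ (R.y0 : ℝ) ≤ y ∧ y ≤ R.y1

/-- The rectangle is nonempty and has distance at least `δ` to the boundary of the unit square. -/
def Rect.ok (δ : ℚ) (R : Rect) : Prop :=
  δ ≤ R.x0 ∧ R.x0 ≤ R.x1 ∧ R.x1 + δ ≤ 1 ∧ δ ≤ R.y0 ∧ R.y0 ≤ R.y1 ∧ R.y1 + δ ≤ 1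

/-- The two rectangles are separated by `δ` in one of the two coordinates. -/
def Rect.sep (δ : ℚ) (R R' : Rect) : Prop :=
  R.x1 + δ ≤ R'.x0 ∨ R'.x1 + δ ≤ R.x0 ∨ R.y1 + δ ≤ R'.y0 ∨ R'.y1 + δ ≤ R.y0

theorem Rect.sep.symm {δ : ℚ} {R R' : Rect} (h : R.sep δ R') : R'.sep δ R := by
  unfold Rect.sep at *
  tauto

namespace CutFamily

variable (C : CutFamily)

/-- product cutoff of a rectangle -/
noncomputable def cc (δ : ℚ) (R : Rect) (x y : ℝ) : ℝ :=
  C.c R.x0 R.x1 δ x * C.c R.y0 R.y1 δ y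

/-- product cutoff times `x - x0` -/
noncomputable def lc (δ : ℚ) (R : Rect) (x y : ℝ) : ℝ :=
  (C.l R.x0 R.x1 δ x - R.x0 * C.c R.x0 R.x1 δ x) * C.c R.y0 R.y1 δ y

/-- product cutoff times `y - y0` -/
noncomputable def cl (δ : ℚ) (R : Rect) (x y : ℝ) : ℝ :=
  C.c R.x0 R.x1 δ x * (C.l R.y0 R.y1 δ y - R.y0 * C.c R.y0 R.y1 δ y)

variable {δ : ℚ} {R R' : Rect} {x y : ℝ}

theorem cc_mem (hδ : 0 < δ) (hR : R.ok δ) (h : R.mem x y) : C.cc δ R x y = 1 := by
  obtain ⟨h1, h2, h3, h4, h5, h6⟩ := hR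
  obtain ⟨m1, m2, m3, m4⟩ := h
  unfold cc
  rw [C.c_one _ _ _ hδ h1 h2 h3 x m1 m2, C.c_one _ _ _ hδ h4 h5 h6 y m3 m4, one_mul]

theorem lc_mem (hδ : 0 < δ) (hR : R.ok δ) (h : R.mem x y) : C.lc δ R x y = x - R.x0 := by
  obtain ⟨h1, h2, h3, h4, h5, h6⟩ := hR
  obtain ⟨m1, m2, m3, m4⟩ := h
  unfold lc
  rw [C.c_one _ _ _ hδ h1 h2 h3 x m1 m2, C.c_one _ _ _ hδ h4 h5 h6 y m3 m4,
    C.l_id _ _ _ hδ h1 h2 h3 x m1 m2]
  ring

theorem cl_mem (hδ : 0 < δ) (hR : R.ok δ) (h : R.mem x y) : C.cl δ R x y = y - R.y0 := by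
  obtain ⟨h1, h2, h3, h4, h5, h6⟩ := hR
  obtain ⟨m1, m2, m3, m4⟩ := h
  unfold cl
  rw [C.c_one _ _ _ hδ h1 h2 h3 x m1 m2, C.c_one _ _ _ hδ h4 h5 h6 y m3 m4,
    C.l_id _ _ _ hδ h4 h5 h6 y m3 m4]
  ring

/-- key vanishing: if `(x,y)` is in `R'` and `R, R'` are separated then the one-dimensional
cutoffs of `R` vanish in the first or in the second coordinate. -/
theorem vanish (hδ : 0 < δ) (hR : R.ok δ) (hR' : R'.ok δ) (hs : R.sep δ R') (h : R'.mem x y) :
    (C.c R.x0 R.x1 δ x = 0 ∧ C.l R.x0 R.x1 δ x = 0) ∨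
    (C.c R.y0 R.y1 δ y = 0 ∧ C.l R.y0 R.y1 δ y = 0) := by
  obtain ⟨h1, h2, h3, h4, h5, h6⟩ := hR
  obtain ⟨k1, k2, k3, k4, k5, k6⟩ := hR'
  obtain ⟨m1, m2, m3, m4⟩ := h
  have hδ' : (0 : ℝ) < δ := by exact_mod_cast hδ
  have k1' : (δ : ℝ) ≤ R'.x0 := by exact_mod_cast k1
  have k3' : (R'.x1 : ℝ) + δ ≤ 1 := by exact_mod_cast k3
  have k4' : (δ : ℝ) ≤ R'.y0 := by exact_mod_cast k4
  have k6' : (R'.y1 : ℝ) + δ ≤ 1 := by exact_mod_cast k6
  have hx0 : 0 ≤ x := by linarith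
  have hx1 : x ≤ 1 := by linarith
  have hy0 : 0 ≤ y := by linarith
  have hy1 : y ≤ 1 := by linarith
  rcases hs with hs | hs | hs | hs
  · left
    have hs' : (R.x1 : ℝ) + δ ≤ R'.x0 := by exact_mod_cast hs
    exact ⟨C.c_zero _ _ _ hδ h1 h2 h3 x hx0 hx1 (Or.inr (by linarith)),
      C.l_zero _ _ _ hδ h1 h2 h3 x hx0 hx1 (Or.inr (by linarith))⟩
  · left
    have hs' : (R'.x1 : ℝ) + δ ≤ R.x0 := by exact_mod_cast hs
    exact ⟨C.c_zero _ _ _ hδ h1 h2 h3 x hx0 hx1 (Or.inl (by linarith)),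
      C.l_zero _ _ _ hδ h1 h2 h3 x hx0 hx1 (Or.inl (by linarith))⟩
  · right
    have hs' : (R.y1 : ℝ) + δ ≤ R'.y0 := by exact_mod_cast hs
    exact ⟨C.c_zero _ _ _ hδ h4 h5 h6 y hy0 hy1 (Or.inr (by linarith)),
      C.l_zero _ _ _ hδ h4 h5 h6 y hy0 hy1 (Or.inr (by linarith))⟩
  · right
    have hs' : (R'.y1 : ℝ) + δ ≤ R.y0 := by exact_mod_cast hs
    exact ⟨C.c_zero _ _ _ hδ h4 h5 h6 y hy0 hy1 (Or.inl (by linarith)),
      C.l_zero _ _ _ hδ h4 h5 h6 y hy0 hy1 (Or.inl (by linarith))⟩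

theorem cc_zero (hδ : 0 < δ) (hR : R.ok δ) (hR' : R'.ok δ) (hs : R.sep δ R') (h : R'.mem x y) :
    C.cc δ R x y = 0 := by
  unfold cc
  rcases C.vanish hδ hR hR' hs h with ⟨h1, _⟩ | ⟨h1, _⟩ <;> simp [h1]

theorem lc_zero (hδ : 0 < δ) (hR : R.ok δ) (hR' : R'.ok δ) (hs : R.sep δ R') (h : R'.mem x y) :
    C.lc δ R x y = 0 := by
  unfold lc
  rcases C.vanish hδ hR hR' hs h with ⟨h1, h2⟩ | ⟨h1, _⟩
  · simp [h1, h2]
  · simp [h1]

theorem cl_zero (hδ : 0 < δ) (hR : R.ok δ) (hR' : R'.ok δ) (hs : R.sep δ R') (h : R'.mem x y) :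
    C.cl δ R x y = 0 := by
  unfold cl
  rcases C.vanish hδ hR hR' hs h with ⟨h1, h2⟩ | ⟨h1, h2⟩
  · simp [h1]
  · simp [h1, h2]

end CutFamily

/-- A box system: `N` rules, each with a domain rectangle, an image rectangle, the coordinate it
scales (`tp = false`: first, `tp = true`: second) and the scaling factor; and a halting
rectangle. -/
structure BoxSys (N : ℕ) where
  δ : ℚ
  D : Fin N → Rect
  E : Fin N → Rect
  H : Rect
  tp : Fin N → Bool
  sc : Fin N → ℚ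
  δpos : 0 < δ
  Dok : ∀ i, (D i).ok δ
  Eok : ∀ i, (E i).ok δ
  Hok : H.ok δ
  Dsep : ∀ i j, i ≠ j → (D i).sep δ (D j)
  Esep : ∀ i j, i ≠ j → (E i).sep δ (E j)
  Hsep : ∀ i, (D i).sep δ H
  scpos : ∀ i, 0 < sc i

namespace BoxSys

variable {N : ℕ} (B : BoxSys N) (C : CutFamily)

/-- first coordinate of the affine map of rule `i` -/
noncomputable def Tx (i : Fin N) (x : ℝ) : ℝ :=
  bif B.tp i then (B.E i).x0 + (x - (B.D i).x0) else (B.E i).x0 + B.sc i * (x - (B.D i).x0)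

/-- second coordinate of the affine map of rule `i` -/
noncomputable def Ty (i : Fin N) (y : ℝ) : ℝ :=
  bif B.tp i then (B.E i).y0 + B.sc i * (y - (B.D i).y0) else (B.E i).y0 + (y - (B.D i).y0)

/-- small slope -/
def eps (N : ℕ) : ℚ := 1 / (4 * (N + 3))

/-- level of rule `i` -/
def lev (N : ℕ) (i : ℕ) : ℚ := (i + 1) / (N + 3)

theorem eps_pos (N : ℕ) : 0 < eps N := by unfold eps; positivity

/-- First shear profile (in the direction `z`). -/
noncomputable def F1 (x y : ℝ) : ℝ :=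
  ∑ i : Fin N, ((lev N i : ℝ) * C.cc B.δ (B.D i) x y +
    (eps N : ℝ) * (bif B.tp i then C.cl B.δ (B.D i) x y else C.lc B.δ (B.D i) x y)) +
  (lev N N : ℝ) * C.cc B.δ B.H x y

/-- Second shear profile (in the direction `x`). -/
noncomputable def F2 (z : ℝ) : ℝ :=
  ∑ i : Fin N, ((bif B.tp i then 0 else ((B.sc i - 1) / eps N : ℚ) : ℝ) *
      (C.l (lev N i) (lev N i + eps N) (eps N) z - lev N i *
        C.c (lev N i) (lev N i + eps N) (eps N) z) +
    (((B.E i).x0 - (B.D i).x0 : ℚ) : ℝ) * C.c (lev N i) (lev N i + eps N) (eps N) z)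

/-- Third shear profile (in the direction `y`). -/
noncomputable def F3 (z : ℝ) : ℝ :=
  ∑ i : Fin N, ((bif B.tp i then ((B.sc i - 1) / eps N : ℚ) else 0 : ℝ) *
      (C.l (lev N i) (lev N i + eps N) (eps N) z - lev N i *
        C.c (lev N i) (lev N i + eps N) (eps N) z) +
    (((B.E i).y0 - (B.D i).y0 : ℚ) : ℝ) * C.c (lev N i) (lev N i + eps N) (eps N) z)

/-- Fourth shear profile (in the direction `z`). -/
noncomputable def F4 (x y : ℝ) : ℝ :=
  ∑ i : Fin N, ((-lev N i : ℚ) * C.cc B.δ (B.E i) x y +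
    ((-(eps N / B.sc i) : ℚ) : ℝ) *
      (bif B.tp i then C.cl B.δ (B.E i) x y else C.lc B.δ (B.E i) x y))

/-- the height reached in the first shear -/
noncomputable def z1 (i : Fin N) (x y : ℝ) : ℝ :=
  lev N i + eps N * (bif B.tp i then y - (B.D i).y0 else x - (B.D i).x0)

variable {B C}

theorem F1_mem {i : Fin N} {x y : ℝ} (h : (B.D i).mem x y) : B.F1 C x y = B.z1 i x y := by
  unfold F1 z1
  rw [Finset.sum_eq_single i, C.cc_mem B.δpos (B.Dok i) h, C.cl_mem B.δpos (B.Dok i) h,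
    C.lc_mem B.δpos (B.Dok i) h, C.cc_zero B.δpos B.Hok (B.Dok i) (B.Hsep i).symm h]
  · ring
  · intro j _ hj
    rw [C.cc_zero B.δpos (B.Dok j) (B.Dok i) (B.Dsep j i hj) h,
      C.cl_zero B.δpos (B.Dok j) (B.Dok i) (B.Dsep j i hj) h,
      C.lc_zero B.δpos (B.Dok j) (B.Dok i) (B.Dsep j i hj) h]
    simp
  · intro h'
    exact absurd (Finset.mem_univ i) h'

theorem F1_halt {x y : ℝ} (h : B.H.mem x y) : B.F1 C x y = lev N N := by
  unfold F1
  rw [Finset.sum_eq_zero, C.cc_mem B.δpos B.Hok h]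
  · ring
  · intro j _
    rw [C.cc_zero B.δpos (B.Dok j) B.Hok (B.Hsep j) h,
      C.cl_zero B.δpos (B.Dok j) B.Hok (B.Hsep j) h,
      C.lc_zero B.δpos (B.Dok j) B.Hok (B.Hsep j) h]
    simp

theorem F4_mem {i : Fin N} {x y : ℝ} (h : (B.E i).mem x y) :
    B.F4 C x y = -(lev N i + eps N / B.sc i *
      (bif B.tp i then y - (B.E i).y0 else x - (B.E i).x0)) := by
  unfold F4
  rw [Finset.sum_eq_single i, C.cc_mem B.δpos (B.Eok i) h, C.cl_mem B.δpos (B.Eok i) h,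
    C.lc_mem B.δpos (B.Eok i) h]
  · push_cast
    ring
  · intro j _ hj
    rw [C.cc_zero B.δpos (B.Eok j) (B.Eok i) (B.Esep j i hj) h,
      C.cl_zero B.δpos (B.Eok j) (B.Eok i) (B.Esep j i hj) h,
      C.lc_zero B.δpos (B.Eok j) (B.Eok i) (B.Esep j i hj) h]
    simp
  · intro h'
    exact absurd (Finset.mem_univ i) h'

/-- one-dimensional cutoffs in the vertical variable -/
theorem cz_self (i : Fin N) {z : ℝ} (h1 : (lev N i : ℝ) ≤ z) (h2 : z ≤ lev N i + eps N) :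
    C.c (lev N i) (lev N i + eps N) (eps N) z = 1 ∧
      C.l (lev N i) (lev N i + eps N) (eps N) z = z := by
  have hN : (0 : ℚ) < N + 3 := by positivity
  have e1 : eps N ≤ lev N i := by
    unfold eps lev
    rw [div_le_div_iff₀ (by positivity) hN]
    have : (0 : ℚ) ≤ (i : ℕ) := by positivity
    nlinarith
  have e2 : lev N i ≤ lev N i + eps N := by linarith [eps_pos N]
  have e3 : lev N i + eps N + eps N ≤ 1 := by
    unfold eps lev
    have hi : ((i : ℕ) : ℚ) + 1 ≤ N := by exact_mod_cast i.2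
    have : (((i : ℕ) : ℚ) + 1) / (N + 3) + 1 / (4 * (N + 3)) + 1 / (4 * (N + 3)) =
      (((i : ℕ) : ℚ) + 1 + 1 / 2) / (N + 3) := by
      field_simp; ring
    rw [this, div_le_one hN]
    linarith
  exact ⟨C.c_one _ _ _ (eps_pos N) e1 e2 e3 z h1 (by push_cast; exact h2),
    C.l_id _ _ _ (eps_pos N) e1 e2 e3 z h1 (by push_cast; exact h2)⟩

theorem cz_other (i j : Fin N) (hij : j ≠ i) {z : ℝ} (h1 : (lev N i : ℝ) ≤ z)
    (h2 : z ≤ lev N i + eps N) :
    C.c (lev N j) (lev N j + eps N) (eps N) z = 0 ∧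
      C.l (lev N j) (lev N j + eps N) (eps N) z = 0 := by
  have hN : (0 : ℚ) < N + 3 := by positivity
  have e1 : ∀ i : Fin N, eps N ≤ lev N i := by
    intro i
    unfold eps lev
    rw [div_le_div_iff₀ (by positivity) hN]
    have : (0 : ℚ) ≤ (i : ℕ) := by positivity
    nlinarith
  have e2 : lev N j ≤ lev N j + eps N := by linarith [eps_pos N]
  have e3 : ∀ i : Fin N, lev N i + eps N + eps N ≤ 1 := by
    intro i
    unfold eps lev
    have hi : ((i : ℕ) : ℚ) + 1 ≤ N := by exact_mod_cast i.2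
    have : (((i : ℕ) : ℚ) + 1) / (N + 3) + 1 / (4 * (N + 3)) + 1 / (4 * (N + 3)) =
      (((i : ℕ) : ℚ) + 1 + 1 / 2) / (N + 3) := by
      field_simp; ring
    rw [this, div_le_one hN]
    linarith
  have z0 : 0 ≤ z := by
    have := e1 i
    have h3 : (0 : ℝ) < eps N := by exact_mod_cast eps_pos N
    have h4 : (eps N : ℝ) ≤ lev N i := by exact_mod_cast this
    linarith
  have z1 : z ≤ 1 := by
    have := e3 i
    have h3 : (0 : ℝ) < eps N := by exact_mod_cast eps_pos N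
    have h4 : (lev N i : ℝ) + eps N + eps N ≤ 1 := by exact_mod_cast this
    linarith
  have key : (z + (eps N : ℝ) ≤ (lev N j : ℝ) ∨
      (((lev N j + eps N : ℚ)) : ℝ) + (eps N : ℝ) ≤ z) := by
    rcases lt_or_gt_of_ne hij with h | h
    · right
      have h' : ((j : ℕ) : ℚ) + 1 ≤ (i : ℕ) := by exact_mod_cast h
      have : lev N j + eps N + eps N ≤ lev N i := by
        unfold eps lev
        have : (((j : ℕ) : ℚ) + 1) / (N + 3) + 1 / (4 * (N + 3)) + 1 / (4 * (N + 3)) =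
          (((j : ℕ) : ℚ) + 1 + 1 / 2) / (N + 3) := by
          field_simp; ring
        rw [this]
        apply div_le_div_of_nonneg_right _ hN.le
        linarith
      have h4 : (lev N j : ℝ) + eps N + eps N ≤ lev N i := by exact_mod_cast this
      push_cast
      linarith
    · left
      have h' : ((i : ℕ) : ℚ) + 1 ≤ (j : ℕ) := by exact_mod_cast h
      have : lev N i + eps N + eps N ≤ lev N j := by
        unfold eps lev
        have : (((i : ℕ) : ℚ) + 1) / (N + 3) + 1 / (4 * (N + 3)) + 1 / (4 * (N + 3)) =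
          (((i : ℕ) : ℚ) + 1 + 1 / 2) / (N + 3) := by
          field_simp; ring
        rw [this]
        apply div_le_div_of_nonneg_right _ hN.le
        linarith
      have h4 : (lev N i : ℝ) + eps N + eps N ≤ lev N j := by exact_mod_cast this
      linarith
  exact ⟨C.c_zero _ _ _ (eps_pos N) (e1 j) e2 (e3 j) z z0 z1 key,
    C.l_zero _ _ _ (eps_pos N) (e1 j) e2 (e3 j) z z0 z1 key⟩

theorem F2_mem (i : Fin N) {z : ℝ} (h1 : (lev N i : ℝ) ≤ z) (h2 : z ≤ lev N i + eps N) :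
    B.F2 C z = (bif B.tp i then 0 else ((B.sc i - 1) / eps N : ℚ) : ℝ) * (z - lev N i) +
      ((B.E i).x0 - (B.D i).x0) := by
  unfold F2
  rw [Finset.sum_eq_single i, (cz_self i h1 h2).1, (cz_self i h1 h2).2]
  · push_cast
    ring
  · intro j _ hj
    rw [(cz_other i j hj h1 h2).1, (cz_other i j hj h1 h2).2]
    ring
  · intro h'
    exact absurd (Finset.mem_univ i) h'

theorem F3_mem (i : Fin N) {z : ℝ} (h1 : (lev N i : ℝ) ≤ z) (h2 : z ≤ lev N i + eps N) :
    B.F3 C z = (bif B.tp i then ((B.sc i - 1) / eps N : ℚ) else 0 : ℝ) * (z - lev N i) +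
      ((B.E i).y0 - (B.D i).y0) := by
  unfold F3
  rw [Finset.sum_eq_single i, (cz_self i h1 h2).1, (cz_self i h1 h2).2]
  · push_cast
    ring
  · intro j _ hj
    rw [(cz_other i j hj h1 h2).1, (cz_other i j hj h1 h2).2]
    ring
  · intro h'
    exact absurd (Finset.mem_univ i) h'

theorem z1_bounds {i : Fin N} {x y : ℝ} (h : (B.D i).mem x y) :
    (lev N i : ℝ) ≤ B.z1 i x y ∧ B.z1 i x y ≤ lev N i + eps N := by
  have he : (0 : ℝ) < eps N := by exact_mod_cast eps_pos N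
  obtain ⟨h1, h2, h3, h4, h5, h6⟩ := B.Dok i
  obtain ⟨m1, m2, m3, m4⟩ := h
  have hδ : (0 : ℝ) < B.δ := by exact_mod_cast B.δpos
  have a1 : (B.δ : ℝ) ≤ (B.D i).x0 := by exact_mod_cast h1
  have a2 : ((B.D i).x1 : ℝ) + B.δ ≤ 1 := by exact_mod_cast h3
  have a3 : (B.δ : ℝ) ≤ (B.D i).y0 := by exact_mod_cast h4
  have a4 : ((B.D i).y1 : ℝ) + B.δ ≤ 1 := by exact_mod_cast h6
  unfold z1
  cases B.tp i
  · simp only [cond_false]
    constructor
    · have : 0 ≤ (eps N : ℝ) * (x - (B.D i).x0) := mul_nonneg he.le (by linarith)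
      linarith
    · have : (eps N : ℝ) * (x - (B.D i).x0) ≤ eps N * 1 :=
        mul_le_mul_of_nonneg_left (by linarith) he.le
      linarith
  · simp only [cond_true]
    constructor
    · have : 0 ≤ (eps N : ℝ) * (y - (B.D i).y0) := mul_nonneg he.le (by linarith)
      linarith
    · have : (eps N : ℝ) * (y - (B.D i).y0) ≤ eps N * 1 :=
        mul_le_mul_of_nonneg_left (by linarith) he.le
      linarith

/-- the second shear realises the first coordinate of the affine map -/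
theorem F2_step {i : Fin N} {x y : ℝ} (h : (B.D i).mem x y) :
    x + B.F2 C (B.z1 i x y) = B.Tx i x := by
  obtain ⟨h1, h2⟩ := z1_bounds h
  have he : (0 : ℝ) < eps N := by exact_mod_cast eps_pos N
  rw [F2_mem i h1 h2]
  unfold z1 Tx
  cases B.tp i
  · simp only [cond_false]
    push_cast
    field_simp
    ring
  · simp only [cond_true]
    ring

/-- the third shear realises the second coordinate of the affine map -/
theorem F3_step {i : Fin N} {x y : ℝ} (h : (B.D i).mem x y) :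
    y + B.F3 C (B.z1 i x y) = B.Ty i y := by
  obtain ⟨h1, h2⟩ := z1_bounds h
  have he : (0 : ℝ) < eps N := by exact_mod_cast eps_pos N
  rw [F3_mem i h1 h2]
  unfold z1 Ty
  cases B.tp i
  · simp only [cond_false]
    ring
  · simp only [cond_true]
    push_cast
    field_simp
    ring

/-- the fourth shear brings the point back to the plane `z = 0` -/
theorem F4_step {i : Fin N} {x y : ℝ} (h' : (B.E i).mem (B.Tx i x) (B.Ty i y)) :
    B.z1 i x y + B.F4 C (B.Tx i x) (B.Ty i y) = 0 := by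
  have hs : (0 : ℝ) < B.sc i := by exact_mod_cast B.scpos i
  rw [F4_mem h']
  unfold z1 Tx Ty
  cases B.tp i
  · simp only [cond_false]
    field_simp
    ring
  · simp only [cond_true]
    field_simp
    ring

/-- lower end of the detection slab -/
def zlo (N : ℕ) : ℚ := lev N N - 2 * eps N

/-- upper end of the detection slab -/
def zhi (N : ℕ) : ℚ := lev N N + 2 * eps N

theorem z1_lt (i : Fin N) {x y : ℝ} (h : (B.D i).mem x y) :
    0 < B.z1 i x y ∧ B.z1 i x y < zlo N := by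
  obtain ⟨h1, h2⟩ := z1_bounds h
  have hN : (0 : ℚ) < N + 3 := by positivity
  constructor
  · have : (0 : ℚ) < lev N i := by unfold lev; positivity
    have : (0 : ℝ) < lev N i := by exact_mod_cast this
    linarith
  · have : lev N i + eps N < zlo N := by
      unfold zlo eps lev
      have hi : ((i : ℕ) : ℚ) + 1 ≤ N := by exact_mod_cast i.2
      have e1 : (((i : ℕ) : ℚ) + 1) / (N + 3) + 1 / (4 * (N + 3)) =
        (((i : ℕ) : ℚ) + 1 + 1 / 4) / (N + 3) := by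
        field_simp
      have e2 : ((N : ℚ) + 1) / (N + 3) - 2 * (1 / (4 * (N + 3))) =
        ((N : ℚ) + 1 / 2) / (N + 3) := by
        field_simp; ring
      rw [e1, e2]
      apply div_lt_div_of_pos_right _ hN
      linarith
    have : (lev N i : ℝ) + eps N < zlo N := by exact_mod_cast this
    linarith

theorem halt_level (N : ℕ) : (zlo N : ℝ) < lev N N ∧ (lev N N : ℝ) < zhi N := by
  have := eps_pos N
  constructor
  · have : zlo N < lev N N := by unfold zlo; linarith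
    exact_mod_cast this
  · have : lev N N < zhi N := by unfold zhi; linarith
    exact_mod_cast this

theorem slab_bounds (N : ℕ) : 0 < zlo N ∧ zlo N < zhi N ∧ zhi N < 1 := by
  have hN : (0 : ℚ) < N + 3 := by positivity
  have := eps_pos N
  refine ⟨?_, ?_, ?_⟩
  · unfold zlo eps lev
    have e2 : ((N : ℚ) + 1) / (N + 3) - 2 * (1 / (4 * (N + 3))) =
        ((N : ℚ) + 1 / 2) / (N + 3) := by
        field_simp; ring
    rw [e2]
    positivity
  · unfold zlo zhi; linarith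
  · unfold zhi eps lev
    have e2 : ((N : ℚ) + 1) / (N + 3) + 2 * (1 / (4 * (N + 3))) =
        ((N : ℚ) + 3 / 2) / (N + 3) := by
        field_simp; ring
    rw [e2, div_lt_one hN]
    linarith

end BoxSys

end Vale.Agent.P113.H278
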