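import Vale.Agent.P113.H278.Code
import Vale.Agent.P113.Interface
import Vale.Agent.P113.H282.Bump
import Vale.Agent.P113.H854.Per

/-!
The cutoffs and the four shear profiles as finite sums of products of periodised bumps
(problem P113).
-/

namespace Vale.Agent.P113.H278

open Vale.Agent.P113

/-! ### rational codes -/

/-- a code of a rational number -/
def ratC (q : ℚ) : RatCode := (decide (0 ≤ q), q.num.natAbs, q.den - 1)

theorem ratVal_ratC (q : ℚ) : ratVal (ratC q) = q := by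
  have hd : ((q.den - 1 : ℕ) : ℚ) + 1 = q.den := by
    have h := q.pos
    have h2 : q.den - 1 + 1 = q.den := Nat.sub_add_cancel h
    exact_mod_cast h2
  have hq : (q.num : ℚ) / q.den = q := Rat.num_div_den q
  unfold ratVal ratC
  simp only [decide_eq_true_eq]
  rw [hd]
  by_cases h : 0 ≤ q
  · rw [if_pos h, one_mul]
    have h1 : ((q.num.natAbs : ℕ) : ℚ) = q.num := by
      rw [Nat.cast_natAbs, abs_of_nonneg (Rat.num_nonneg.2 h)]
    rw [h1, hq]
  · rw [if_neg h]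
    have h1 : ((q.num.natAbs : ℕ) : ℚ) = -q.num := by
      have h3 : q.num ≤ 0 := by
        have := Rat.num_neg.2 (not_le.1 h)
        omega
      rw [Nat.cast_natAbs, abs_of_nonpos h3]
      push_cast
      rfl
    rw [h1, neg_div, hq]
    ring

/-! ### the bumps -/

/-- plateau bump -/
def cBump (α β δ : ℚ) : Bump :=
  ⟨Sum.inr (ratC (2 / δ * (β - α) + 2)), 0, ratC (2 / δ), ratC (2 / δ * α - 1)⟩

/-- plateau bump times the variable -/
def lBump (α β δ : ℚ) : Bump :=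
  ⟨Sum.inr (ratC (2 / δ * (β - α) + 2)), 1, ratC (2 / δ), ratC (2 / δ * α - 1)⟩

theorem cBump_valid {α β δ : ℚ} (hδ : 0 < δ) (h : α ≤ β) : (cBump α β δ).Valid := by
  refine ⟨?_, ?_⟩
  · show ratVal (ratC (2 / δ)) ≠ 0
    rw [ratVal_ratC]; positivity
  · intro l hl
    have : l = ratC (2 / δ * (β - α) + 2) := (Sum.inr.inj hl).symm
    rw [this, ratVal_ratC]
    have h1 : 0 ≤ β - α := by linarith
    positivity

theorem lBump_valid {α β δ : ℚ} (hδ : 0 < δ) (h : α ≤ β) : (lBump α β δ).Valid := by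
  refine ⟨?_, ?_⟩
  · show ratVal (ratC (2 / δ)) ≠ 0
    rw [ratVal_ratC]; positivity
  · intro l hl
    have : l = ratC (2 / δ * (β - α) + 2) := (Sum.inr.inj hl).symm
    rw [this, ratVal_ratC]
    have h1 : 0 ≤ β - α := by linarith
    positivity

theorem kappa_eq : kappa = H282.kappa := rfl

theorem kappa_ne : kappa ≠ 0 := H282.kappa_ne

theorem cBump_fn (α β δ : ℚ) (s : ℝ) : (cBump α β δ).fn s = kappa * H282.cut α β δ s := by
  have h1 : (cBump α β δ).fn s = s ^ 0 * H282.plat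
      ((ratVal (ratC (2 / δ * (β - α) + 2)) : ℚ) : ℝ)
      ((ratVal (ratC (2 / δ)) : ℚ) * s - (ratVal (ratC (2 / δ * α - 1)) : ℚ)) := rfl
  rw [h1, ratVal_ratC, ratVal_ratC, ratVal_ratC, H282.cut, ← kappa_eq, pow_zero, one_mul,
    mul_inv_cancel_left₀ kappa_ne]
  push_cast
  rfl

theorem lBump_fn (α β δ : ℚ) (s : ℝ) : (lBump α β δ).fn s = s * (kappa * H282.cut α β δ s) := by
  have h1 : (lBump α β δ).fn s = s ^ 1 * H282.plat
      ((ratVal (ratC (2 / δ * (β - α) + 2)) : ℚ) : ℝ)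
      ((ratVal (ratC (2 / δ)) : ℚ) * s - (ratVal (ratC (2 / δ * α - 1)) : ℚ)) := rfl
  rw [h1, ratVal_ratC, ratVal_ratC, ratVal_ratC, H282.cut, ← kappa_eq, pow_one,
    mul_inv_cancel_left₀ kappa_ne]
  push_cast
  rfl

theorem cut_zero_ext {α β δ : ℚ} (hδ : 0 < δ) (h1 : δ ≤ α) (h2 : α ≤ β) (h3 : β + δ ≤ 1)
    (y : ℝ) (hy : y ≤ 0 ∨ 1 ≤ y) : H282.cut α β δ y = 0 := by
  have e0 : (0 : ℝ) < δ := by exact_mod_cast hδ
  have e1 : (δ : ℝ) ≤ α := by exact_mod_cast h1
  have e2 : (α : ℝ) ≤ β := by exact_mod_cast h2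
  have e3 : (β : ℝ) + δ ≤ 1 := by exact_mod_cast h3
  rcases hy with hy | hy
  · exact H282.cut_zero_left e0 e2 (by linarith)
  · exact H282.cut_zero_right e0 e2 (by linarith)

theorem per_cBump {α β δ : ℚ} (hδ : 0 < δ) (h1 : δ ≤ α) (h2 : α ≤ β) (h3 : β + δ ≤ 1)
    {y : ℝ} (h0 : 0 ≤ y) (h1' : y ≤ 1) :
    periodize (cBump α β δ).fn y = kappa * H282.cut α β δ y := by
  have : periodize (cBump α β δ).fn y = (cBump α β δ).fn y :=
    H854.per_eq_self (g := (cBump α β δ).fn) (fun z hz => by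
      rw [cBump_fn, cut_zero_ext hδ h1 h2 h3 z hz, mul_zero]) h0 h1'
  rw [this, cBump_fn]

theorem per_lBump {α β δ : ℚ} (hδ : 0 < δ) (h1 : δ ≤ α) (h2 : α ≤ β) (h3 : β + δ ≤ 1)
    {y : ℝ} (h0 : 0 ≤ y) (h1' : y ≤ 1) :
    periodize (lBump α β δ).fn y = y * (kappa * H282.cut α β δ y) := by
  have : periodize (lBump α β δ).fn y = (lBump α β δ).fn y :=
    H854.per_eq_self (g := (lBump α β δ).fn) (fun z hz => by
      rw [lBump_fn, cut_zero_ext hδ h1 h2 h3 z hz, mul_zero, mul_zero]) h0 h1'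
  rw [this, lBump_fn]

/-- The cutoffs given by periodised plateau bumps. -/
noncomputable def cuts : CutFamily where
  c α β δ y := kappa⁻¹ * periodize (cBump α β δ).fn y
  l α β δ y := kappa⁻¹ * periodize (lBump α β δ).fn y
  c_one α β δ hδ h1 h2 h3 y hy1 hy2 := by
    have e0 : (0 : ℝ) < δ := by exact_mod_cast hδ
    have e1 : (δ : ℝ) ≤ α := by exact_mod_cast h1
    have e3 : (β : ℝ) + δ ≤ 1 := by exact_mod_cast h3
    rw [per_cBump hδ h1 h2 h3 (by linarith) (by linarith), inv_mul_cancel_left₀ kappa_ne,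
      H282.cut_one e0 hy1 hy2]
  l_id α β δ hδ h1 h2 h3 y hy1 hy2 := by
    have e0 : (0 : ℝ) < δ := by exact_mod_cast hδ
    have e1 : (δ : ℝ) ≤ α := by exact_mod_cast h1
    have e3 : (β : ℝ) + δ ≤ 1 := by exact_mod_cast h3
    rw [per_lBump hδ h1 h2 h3 (by linarith) (by linarith), H282.cut_one e0 hy1 hy2, mul_one,
      mul_comm y, inv_mul_cancel_left₀ kappa_ne]
  c_zero α β δ hδ h1 h2 h3 y hy0 hy1 hy := by
    have e0 : (0 : ℝ) < δ := by exact_mod_cast hδ
    have e2 : (α : ℝ) ≤ β := by exact_mod_cast h2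
    rw [per_cBump hδ h1 h2 h3 hy0 hy1, inv_mul_cancel_left₀ kappa_ne]
    rcases hy with hy | hy
    · exact H282.cut_zero_left e0 e2 (by linarith)
    · exact H282.cut_zero_right e0 e2 hy
  l_zero α β δ hδ h1 h2 h3 y hy0 hy1 hy := by
    have e0 : (0 : ℝ) < δ := by exact_mod_cast hδ
    have e2 : (α : ℝ) ≤ β := by exact_mod_cast h2
    have : H282.cut α β δ y = 0 := by
      rcases hy with hy | hy
      · exact H282.cut_zero_left e0 e2 (by linarith)
      · exact H282.cut_zero_right e0 e2 hy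
    rw [per_lBump hδ h1 h2 h3 hy0 hy1, this]
    ring

/-! ### spatial lists -/

/-- `f` is given by a valid spatial list -/
def IsSp (f : (Fin 3 → ℝ) → ℝ) : Prop := ∃ L : Spatial, L.Valid ∧ ∀ x, L.eval x = f x

theorem eval_nil (x : Fin 3 → ℝ) : Spatial.eval [] x = 0 := rfl

theorem eval_cons (c : RatCode × ℤ × (Fin 3 → List Bump)) (L : Spatial) (x : Fin 3 → ℝ) :
    Spatial.eval (c :: L) x = (ratVal c.1 : ℝ) * kappa ^ c.2.1 *
      ∏ i, ((c.2.2 i).map fun g => periodize g.fn (x i)).prod + Spatial.eval L x := rfl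

theorem eval_append (L L' : Spatial) (x : Fin 3 → ℝ) :
    Spatial.eval (L ++ L') x = Spatial.eval L x + Spatial.eval L' x := by
  unfold Spatial.eval
  rw [List.map_append, List.sum_append]

theorem IsSp.zero : IsSp (fun _ => 0) :=
  ⟨[], fun _ hc => absurd hc List.not_mem_nil, fun _ => rfl⟩

theorem IsSp.add {f g : (Fin 3 → ℝ) → ℝ} (hf : IsSp f) (hg : IsSp g) :
    IsSp (fun x => f x + g x) := by
  obtain ⟨L, hL, hL'⟩ := hf
  obtain ⟨K, hK, hK'⟩ := hg
  refine ⟨L ++ K, ?_, fun x => by rw [eval_append, hL', hK']⟩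
  intro c hc
  rcases List.mem_append.1 hc with h | h
  · exact hL c h
  · exact hK c h

theorem IsSp.smul {f : (Fin 3 → ℝ) → ℝ} (q : ℚ) (hf : IsSp f) :
    IsSp (fun x => (q : ℝ) * f x) := by
  obtain ⟨L, hL, hL'⟩ := hf
  refine ⟨L.map fun c => (ratC (q * ratVal c.1), c.2.1, c.2.2), ?_, ?_⟩
  · intro c hc
    obtain ⟨d, hd, rfl⟩ := List.mem_map.1 hc
    exact hL d hd
  · intro x
    show _ = (q : ℝ) * f x
    rw [← hL' x]
    clear hL hL'
    induction L with
    | nil => simp [eval_nil]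
    | cons c L ih =>
      rw [List.map_cons, eval_cons, eval_cons, ih]
      simp only [ratVal_ratC]
      push_cast
      ring

/-- product of two items -/
def mulItem (c d : RatCode × ℤ × (Fin 3 → List Bump)) : RatCode × ℤ × (Fin 3 → List Bump) :=
  (ratC (ratVal c.1 * ratVal d.1), c.2.1 + d.2.1, fun i => c.2.2 i ++ d.2.2 i)

theorem eval_mulItem (c : RatCode × ℤ × (Fin 3 → List Bump)) (L : Spatial) (x : Fin 3 → ℝ) :
    Spatial.eval (L.map (mulItem c)) x = ((ratVal c.1 : ℝ) * kappa ^ c.2.1 *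
      ∏ i, ((c.2.2 i).map fun g => periodize g.fn (x i)).prod) * Spatial.eval L x := by
  induction L with
  | nil => simp [eval_nil]
  | cons d L ih =>
    rw [List.map_cons, eval_cons, eval_cons, ih]
    simp only [mulItem, ratVal_ratC, List.map_append, List.prod_append, Finset.prod_mul_distrib]
    rw [zpow_add₀ kappa_ne]
    push_cast
    ring

theorem IsSp.mul {f g : (Fin 3 → ℝ) → ℝ} (hf : IsSp f) (hg : IsSp g) :
    IsSp (fun x => f x * g x) := by
  obtain ⟨L, hL, hL'⟩ := hf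
  obtain ⟨K, hK, hK'⟩ := hg
  refine ⟨L.flatMap fun c => K.map (mulItem c), ?_, ?_⟩
  · intro c hc
    obtain ⟨d, hd, hd'⟩ := List.mem_flatMap.1 hc
    obtain ⟨e, he, rfl⟩ := List.mem_map.1 hd'
    intro i b hb
    rcases List.mem_append.1 hb with h | h
    · exact hL d hd i b h
    · exact hK e he i b h
  · intro x
    show _ = f x * g x
    rw [← hL' x, ← hK' x]
    clear hL hL' hK'
    induction L with
    | nil => simp [eval_nil]
    | cons c L ih =>
      rw [List.flatMap_cons, eval_append, ih, eval_cons, eval_mulItem]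
      ring

theorem IsSp.sum {ι : Type} (s : Finset ι) {f : ι → (Fin 3 → ℝ) → ℝ} (h : ∀ i ∈ s, IsSp (f i)) :
    IsSp (fun x => ∑ i ∈ s, f i x) := by
  classical
  induction s using Finset.induction_on with
  | empty => simpa using IsSp.zero
  | insert a s ha ih =>
    simp only [Finset.sum_insert ha]
    exact (h a (Finset.mem_insert_self a s)).add
      (ih fun i hi => h i (Finset.mem_insert_of_mem hi))

theorem IsSp.single (i : Fin 3) {g : Bump} (hg : g.Valid) :
    IsSp (fun x => kappa⁻¹ * periodize g.fn (x i)) := by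
  refine ⟨[(ratC 1, -1, fun j => if j = i then [g] else [])], ?_, ?_⟩
  · intro c hc j b hb
    rw [List.mem_singleton.1 hc] at hb
    simp only at hb
    by_cases h : j = i
    · rw [if_pos h] at hb
      rw [List.mem_singleton.1 hb]
      exact hg
    · rw [if_neg h] at hb
      exact absurd hb List.not_mem_nil
  · intro x
    rw [eval_cons, eval_nil]
    simp only [ratVal_ratC]
    rw [Finset.prod_eq_single i]
    · simp
    · intro j _ hj
      simp [hj]
    · intro h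
      exact absurd (Finset.mem_univ i) h

theorem IsSp.c (i : Fin 3) {α β δ : ℚ} (hδ : 0 < δ) (h : α ≤ β) :
    IsSp (fun x => cuts.c α β δ (x i)) := IsSp.single i (cBump_valid hδ h)

theorem IsSp.l (i : Fin 3) {α β δ : ℚ} (hδ : 0 < δ) (h : α ≤ β) :
    IsSp (fun x => cuts.l α β δ (x i)) := IsSp.single i (lBump_valid hδ h)

theorem IsSp.sub' {f g : (Fin 3 → ℝ) → ℝ} (q : ℚ) (hf : IsSp f) (hg : IsSp g) :
    IsSp (fun x => f x - (q : ℝ) * g x) := by
  have := hf.add (hg.smul (-q))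
  have e : (fun x => f x - (q : ℝ) * g x) = fun x => f x + ((-q : ℚ) : ℝ) * g x := by
    funext x; push_cast; ring
  rw [e]; exact this

theorem IsSp.cc {δ : ℚ} {R : Rect} (hδ : 0 < δ) (hR : R.ok δ) :
    IsSp (fun x => cuts.cc δ R (x 0) (x 1)) :=
  (IsSp.c 0 hδ hR.2.1).mul (IsSp.c 1 hδ hR.2.2.2.2.1)

theorem IsSp.lc {δ : ℚ} {R : Rect} (hδ : 0 < δ) (hR : R.ok δ) :
    IsSp (fun x => cuts.lc δ R (x 0) (x 1)) :=
  ((IsSp.l 0 hδ hR.2.1).sub' R.x0 (IsSp.c 0 hδ hR.2.1)).mul (IsSp.c 1 hδ hR.2.2.2.2.1)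

theorem IsSp.cl {δ : ℚ} {R : Rect} (hδ : 0 < δ) (hR : R.ok δ) :
    IsSp (fun x => cuts.cl δ R (x 0) (x 1)) :=
  (IsSp.c 0 hδ hR.2.1).mul
    ((IsSp.l 1 hδ hR.2.2.2.2.1).sub' R.y0 (IsSp.c 1 hδ hR.2.2.2.2.1))

theorem IsSp.F1 {N : ℕ} (B : BoxSys N) : IsSp (fun x => B.F1 cuts (x 0) (x 1)) := by
  unfold BoxSys.F1
  refine (IsSp.sum _ fun i _ => ?_).add ((IsSp.cc B.δpos B.Hok).smul _)
  refine ((IsSp.cc B.δpos (B.Dok i)).smul _).add (IsSp.smul _ ?_)
  cases B.tp i
  · exact IsSp.lc B.δpos (B.Dok i)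
  · exact IsSp.cl B.δpos (B.Dok i)

theorem IsSp.F4 {N : ℕ} (B : BoxSys N) : IsSp (fun x => B.F4 cuts (x 0) (x 1)) := by
  unfold BoxSys.F4
  refine (IsSp.sum _ fun i _ => ?_)
  refine ((IsSp.cc B.δpos (B.Eok i)).smul _).add (IsSp.smul _ ?_)
  cases B.tp i
  · exact IsSp.lc B.δpos (B.Eok i)
  · exact IsSp.cl B.δpos (B.Eok i)

theorem IsSp.F2 {N : ℕ} (B : BoxSys N) : IsSp (fun x => B.F2 cuts (x 2)) := by
  unfold BoxSys.F2
  refine (IsSp.sum _ fun i _ => ?_)
  have h : BoxSys.lev N i ≤ BoxSys.lev N i + BoxSys.eps N := by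
    linarith [BoxSys.eps_pos N]
  have h0 := BoxSys.eps_pos N
  refine IsSp.add ?_ ((IsSp.c 2 h0 h).smul _)
  cases B.tp i
  · exact IsSp.smul _ ((IsSp.l 2 h0 h).sub' _ (IsSp.c 2 h0 h))
  · simpa using IsSp.zero

theorem IsSp.F3 {N : ℕ} (B : BoxSys N) : IsSp (fun x => B.F3 cuts (x 2)) := by
  unfold BoxSys.F3
  refine (IsSp.sum _ fun i _ => ?_)
  have h : BoxSys.lev N i ≤ BoxSys.lev N i + BoxSys.eps N := by
    linarith [BoxSys.eps_pos N]
  have h0 := BoxSys.eps_pos N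
  refine IsSp.add ?_ ((IsSp.c 2 h0 h).smul _)
  cases B.tp i
  · simpa using IsSp.zero
  · exact IsSp.smul _ ((IsSp.l 2 h0 h).sub' _ (IsSp.c 2 h0 h))

/-- **The four shear profiles of a reversible program as lists.** For every configuration `c`
the point of `c` is `(ptx c, pty c, 0)`. -/
theorem exists_profiles {m k : ℕ} (P : H907.RevProg m k) :
    ∃ (F : Fin 4 → Spatial) (zlo zhi : ℚ), (∀ j, (F j).Valid) ∧
      (∀ j x s, (F j).eval (Function.update x (Vale.Agent.P113.dir j) s) = (F j).eval x) ∧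
      0 < zlo ∧ zlo < zhi ∧ zhi < 1 ∧
      (∀ c d, P.Step c d → ∃ z : ℝ, 0 < z ∧ z < zlo ∧
        (F 0).eval ![ptx c, pty c, 0] = z ∧
        (ptx c : ℝ) + (F 1).eval ![ptx c, pty c, z] = ptx d ∧
        (pty c : ℝ) + (F 2).eval ![ptx d, pty c, z] = pty d ∧
        z + (F 3).eval ![ptx d, pty d, z] = 0) ∧
      (∀ c : H907.Cfg (Fin m) (Fin k), c.st = P.hlt → zlo < (F 0).eval ![ptx c, pty c, 0] ∧
        (F 0).eval ![ptx c, pty c, 0] < zhi) := by
  obtain ⟨L0, v0, e0⟩ := IsSp.F1 (boxSys P)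
  obtain ⟨L1, v1, e1⟩ := IsSp.F2 (boxSys P)
  obtain ⟨L2, v2, e2⟩ := IsSp.F3 (boxSys P)
  obtain ⟨L3, v3, e3⟩ := IsSp.F4 (boxSys P)
  obtain ⟨s1, s2, s3⟩ := BoxSys.slab_bounds P.rules.card
  refine ⟨![L0, L1, L2, L3], BoxSys.zlo P.rules.card, BoxSys.zhi P.rules.card, ?_, ?_, s1, s2, s3,
    ?_, ?_⟩
  · intro j
    fin_cases j
    · exact v0
    · exact v1
    · exact v2
    · exact v3
  · intro j x s
    fin_cases j
    · show L0.eval (Function.update x 2 s) = L0.eval x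
      rw [e0, e0]; simp
    · show L1.eval (Function.update x 0 s) = L1.eval x
      rw [e1, e1]; simp
    · show L2.eval (Function.update x 1 s) = L2.eval x
      rw [e2, e2]; simp
    · show L3.eval (Function.update x 2 s) = L3.eval x
      rw [e3, e3]; simp
  · intro c d h
    obtain ⟨z, z0, z1, h1, h2, h3, h4⟩ := step_profile cuts P h
    refine ⟨z, z0, z1, ?_, ?_, ?_, ?_⟩
    · show L0.eval _ = z
      rw [e0]; exact h1
    · show (ptx c : ℝ) + L1.eval _ = ptx d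
      rw [e1]; exact h2
    · show (pty c : ℝ) + L2.eval _ = pty d
      rw [e2]; exact h3
    · show z + L3.eval _ = 0
      rw [e3]; exact h4
  · intro c h
    have := halt_profile cuts P h
    show _ < L0.eval _ ∧ L0.eval _ < _
    rw [e0]; exact this

end Vale.Agent.P113.H278
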